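import Crest.Agent.Lib.RamC.Lang
import Crest.Agent.Lib.PolyTime.Code

/-!
# Heap-allocated trees and the compiler from `Code` to the structured RAM language

Register `2` is the heap pointer and register `3` holds the constant `1`.  The tree `nil` is the
pointer `0`, and `node l r` is an address `a > 0` whose cells `a`, `a + 1` point to `l` and `r`.
`cc c k` replaces the tree pointed to by register `k` by its image under `c`, using only the
registers `≥ k` (and the heap pointer), in time and space linear in the cost of `c`.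
-/

set_option autoImplicit false

namespace Crest.Agent.Lib.RamC

open Function Crest.Agent.Lib.PolyTime

variable {w : ℕ} {ρ : ℕ → ℕ}

/-- Total-correctness triple. -/
def Tr (w : ℕ) (ρ : ℕ → ℕ) (s : Stmt) (σ : St) (Q : St → Prop) : Prop :=
  ∃ σ', Ex w ρ s σ σ' ∧ Q σ'

namespace Tr
variable {s a b : Stmt} {σ : St} {Q Q' : St → Prop} {r : ℕ}

theorem mono (h : Tr w ρ s σ Q) (H : ∀ σ', Q σ' → Q' σ') : Tr w ρ s σ Q' := by
  obtain ⟨σ', h₁, h₂⟩ := h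
  exact ⟨σ', h₁, H _ h₂⟩

theorem skip (h : Q σ) : Tr w ρ .skip σ Q := ⟨σ, .skip σ, h⟩

theorem op {o : Op} (h : Q (o.ap w ρ σ)) : Tr w ρ (.op o) σ Q := ⟨_, .op o σ, h⟩

theorem seq (h : Tr w ρ a σ fun σ₁ => Tr w ρ b σ₁ Q) : Tr w ρ (.seq a b) σ Q := by
  obtain ⟨σ₁, h₁, σ₂, h₂, h₃⟩ := h
  exact ⟨σ₂, .seq h₁ h₂, h₃⟩

theorem seq_inv (h : Tr w ρ (.seq a b) σ Q) : Tr w ρ a σ fun σ₁ => Tr w ρ b σ₁ Q := by
  obtain ⟨σ₂, h₁, h₃⟩ := h
  cases h₁ with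
  | seq h₁ h₂ => exact ⟨_, h₁, _, h₂, h₃⟩

theorem bind (h : Tr w ρ a σ Q') (H : ∀ σ₁, Q' σ₁ → Tr w ρ b σ₁ Q) : Tr w ρ (.seq a b) σ Q :=
  seq (h.mono H)

theorem ifz_z (hz : σ.R r = 0) (h : Tr w ρ a σ.tick Q) : Tr w ρ (.ifz r a b) σ Q := by
  obtain ⟨σ', h₁, h₂⟩ := h
  exact ⟨σ', .ifz_z hz h₁, h₂⟩

theorem ifz_nz (hz : σ.R r ≠ 0) (h : Tr w ρ b σ.tick Q) : Tr w ρ (.ifz r a b) σ Q := by
  obtain ⟨σ', h₁, h₂⟩ := h
  exact ⟨σ', .ifz_nz hz h₁, h₂⟩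

theorem whl_stop (hz : σ.R r = 0) (h : Q σ.tick) : Tr w ρ (.whl r a) σ Q :=
  ⟨_, .whl_stop hz, h⟩

theorem whl_next (hz : σ.R r ≠ 0) (h : Tr w ρ a σ.tick fun σ₁ => Tr w ρ (.whl r a) σ₁ Q) :
    Tr w ρ (.whl r a) σ Q := by
  obtain ⟨σ₁, h₁, σ₂, h₂, h₃⟩ := h
  exact ⟨σ₂, .whl_next hz h₁ h₂, h₃⟩

end Tr

/-- `Rep M H v a`: the pointer `a` represents the tree `v` in memory `M`, below address `H`. -/
def Rep (M : ℕ → ℕ) (H : ℕ) : V → ℕ → Prop
  | .nil, a => a = 0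
  | .node l r, a => 0 < a ∧ a + 1 < H ∧ Rep M H l (M a) ∧ Rep M H r (M (a + 1))

theorem Rep.mono {M M' : ℕ → ℕ} {H H' : ℕ} (hM : ∀ a, a < H → M' a = M a) (hH : H ≤ H')
    {v : V} {a : ℕ} (h : Rep M H v a) : Rep M' H' v a := by
  induction v generalizing a with
  | nil => exact h
  | node l r ihl ihr =>
    obtain ⟨h0, h1, h2, h3⟩ := h
    refine ⟨h0, by omega, ?_, ?_⟩
    · rw [hM a (by omega)]; exact ihl h2
    · rw [hM (a + 1) h1]; exact ihr h3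

/-- Frame: the registers below `k` other than the heap pointer and the memory below the heap
pointer are unchanged; the heap grows by at most `dh`, the clock by at most `dt`, and `dd`
random words are drawn. -/
structure Fr (k : ℕ) (σ σ' : St) (dh dt dd : ℕ) : Prop where
  regs : ∀ j, j < k → j ≠ 2 → σ'.R j = σ.R j
  hp_ge : σ.R 2 ≤ σ'.R 2
  hp_le : σ'.R 2 ≤ σ.R 2 + dh
  mem : ∀ a, a < σ.R 2 → σ'.M a = σ.M a
  time : σ'.time ≤ σ.time + dt
  drawn : σ'.drawn = σ.drawn + dd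

namespace Fr
variable {k k' : ℕ} {σ σ₁ σ₂ : St} {dh dt dd dh' dt' dd' : ℕ}

theorem refl (k : ℕ) (σ : St) : Fr k σ σ 0 0 0 :=
  ⟨fun _ _ _ => rfl, le_rfl, le_rfl, fun _ _ => rfl, le_rfl, rfl⟩

theorem tick (k : ℕ) (σ : St) : Fr k σ σ.tick 0 2 0 :=
  ⟨fun _ _ _ => rfl, le_rfl, le_rfl, fun _ _ => rfl, le_rfl, rfl⟩

theorem mono (h : Fr k σ σ₁ dh dt dd) (hk : k' ≤ k) (h₁ : dh ≤ dh') (h₂ : dt ≤ dt')
    (h₃ : dd = dd') : Fr k' σ σ₁ dh' dt' dd' :=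
  ⟨fun j hj h2 => h.regs j (by omega) h2, h.hp_ge, by have := h.hp_le; omega, h.mem,
    by have := h.time; omega, h₃ ▸ h.drawn⟩

theorem trans (h : Fr k σ σ₁ dh dt dd) (h' : Fr k' σ₁ σ₂ dh' dt' dd') :
    Fr (min k k') σ σ₂ (dh + dh') (dt + dt') (dd + dd') :=
  ⟨fun j hj h2 => (h'.regs j (by omega) h2).trans (h.regs j (by omega) h2),
    h.hp_ge.trans h'.hp_ge, by have := h.hp_le; have := h'.hp_le; omega,
    fun a ha => (h'.mem a (ha.trans_le h.hp_ge)).trans (h.mem a ha),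
    by have := h.time; have := h'.time; omega,
    by have := h.drawn; have := h'.drawn; omega⟩

theorem rep (h : Fr k σ σ₁ dh dt dd) {v : V} {a : ℕ} (hv : Rep σ.M (σ.R 2) v a) :
    Rep σ₁.M (σ₁.R 2) v a := hv.mono h.mem h.hp_ge

/-- A pointer in a preserved register. -/
theorem repR (h : Fr k σ σ₁ dh dt dd) {v : V} {j : ℕ} (hj : j < k) (h2 : j ≠ 2)
    (hv : Rep σ.M (σ.R 2) v (σ.R j)) : Rep σ₁.M (σ₁.R 2) v (σ₁.R j) := by
  rw [h.regs j hj h2]; exact h.rep hv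

end Fr

/-- One register `d ≠ 2` has been set to `v`. -/
structure Upd (d v : ℕ) (σ σ' : St) (dd : ℕ) : Prop where
  val : σ'.R d = v
  ne : ∀ j, j ≠ d → σ'.R j = σ.R j
  mem : σ'.M = σ.M
  fr : Fr d σ σ' 0 1 dd

theorem upd_mk {d v : ℕ} (hd : d ≠ 2) (σ : St) (dd : ℕ) :
    Upd d v σ ⟨update σ.R d v, σ.M, σ.drawn + dd, σ.time + 1⟩ dd :=
  ⟨update_self .., fun _ hj => update_of_ne hj .., rfl,
    ⟨fun _ hj _ => update_of_ne hj.ne .., (update_of_ne hd.symm ..).ge,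
      (update_of_ne hd.symm ..).le, fun _ _ => rfl, le_rfl, rfl⟩⟩

section ops
variable {σ : St} {d a b : ℕ}

theorem tr_const (hd : d ≠ 2) (v : ℕ) :
    Tr w ρ (.op (.const d v)) σ fun σ' => Upd d (v % 2 ^ w) σ σ' 0 := .op (upd_mk hd σ 0)
theorem tr_copy (hd : d ≠ 2) :
    Tr w ρ (.op (.copy d a)) σ fun σ' => Upd d (σ.R a) σ σ' 0 := .op (upd_mk hd σ 0)
theorem tr_add (hd : d ≠ 2) :
    Tr w ρ (.op (.add d a b)) σ fun σ' => Upd d ((σ.R a + σ.R b) % 2 ^ w) σ σ' 0 :=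
  .op (upd_mk hd σ 0)
theorem tr_sub (hd : d ≠ 2) :
    Tr w ρ (.op (.sub d a b)) σ fun σ' => Upd d (σ.R a - σ.R b) σ σ' 0 := .op (upd_mk hd σ 0)
theorem tr_mul (hd : d ≠ 2) :
    Tr w ρ (.op (.mul d a b)) σ fun σ' => Upd d ((σ.R a * σ.R b) % 2 ^ w) σ σ' 0 :=
  .op (upd_mk hd σ 0)
theorem tr_quot (hd : d ≠ 2) :
    Tr w ρ (.op (.quot d a b)) σ fun σ' => Upd d (σ.R a / σ.R b) σ σ' 0 := .op (upd_mk hd σ 0)
theorem tr_rem (hd : d ≠ 2) :
    Tr w ρ (.op (.rem d a b)) σ fun σ' => Upd d (σ.R a % σ.R b) σ σ' 0 := .op (upd_mk hd σ 0)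
theorem tr_load (hd : d ≠ 2) :
    Tr w ρ (.op (.load d a)) σ fun σ' => Upd d (σ.M (σ.R a)) σ σ' 0 := .op (upd_mk hd σ 0)
theorem tr_rand (hd : d ≠ 2) :
    Tr w ρ (.op (.rand d)) σ fun σ' => Upd d (ρ σ.drawn % 2 ^ w) σ σ' 1 := .op (upd_mk hd σ 1)

end ops

/-- The constant register is set and the heap may grow by `n`. -/
structure Good (w : ℕ) (σ : St) (n : ℕ) : Prop where
  one : σ.R 3 = 1
  pos : 0 < σ.R 2
  room : σ.R 2 + n < 2 ^ w

theorem Good.fr {σ σ' : St} {n n' k dh dt dd : ℕ} (h : Good w σ n) (hf : Fr k σ σ' dh dt dd)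
    (hk : 4 ≤ k) (hn : dh + n' ≤ n) : Good w σ' n' :=
  ⟨(hf.regs 3 (by omega) (by omega)).trans h.one, h.pos.trans_le hf.hp_ge,
    by have := h.room; have := hf.hp_le; omega⟩

theorem Good.mono {σ : St} {n n' : ℕ} (h : Good w σ n) (hn : n' ≤ n) : Good w σ n' :=
  ⟨h.one, h.pos, by have := h.room; omega⟩

/-- Register `d` := a fresh node with the children in registers `a`, `b`. -/
def cons (d a b : ℕ) : Stmt :=
  .seq (.op (.store a 2)) <| .seq (.op (.add 2 2 3)) <| .seq (.op (.store b 2)) <|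
    .seq (.op (.sub d 2 3)) (.op (.add 2 2 3))

theorem tr_cons {σ : St} {d a b : ℕ} (hg : Good w σ 2) (hd : 4 ≤ d) (hb : b ≠ 2)
    {l r : V} (hl : Rep σ.M (σ.R 2) l (σ.R a)) (hr : Rep σ.M (σ.R 2) r (σ.R b)) :
    Tr w ρ (cons d a b) σ fun σ' => Rep σ'.M (σ'.R 2) (.node l r) (σ'.R d) ∧
      (∀ j, j ≠ d → j ≠ 2 → σ'.R j = σ.R j) ∧ Fr d σ σ' 2 5 0 := by
  obtain ⟨h1, h0, hw⟩ := hg
  refine .seq (.op (.seq (.op (.seq (.op (.seq (.op (.op ?_))))))))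
  have e1 : (σ.R 2 + 1) % 2 ^ w = σ.R 2 + 1 := Nat.mod_eq_of_lt (by omega)
  have e2 : (σ.R 2 + 1 + 1) % 2 ^ w = σ.R 2 + 1 + 1 := Nat.mod_eq_of_lt (by omega)
  simp (disch := omega) only [Op.ap, update_self, update_of_ne, h1, e1, e2, Nat.add_sub_cancel]
  have hM : ∀ x, x < σ.R 2 →
      update (update σ.M (σ.R 2) (σ.R a)) (σ.R 2 + 1) (σ.R b) x = σ.M x := by
    intro x hx
    simp (disch := omega) only [update_of_ne]
  refine ⟨⟨h0, by omega, ?_, ?_⟩, ?_, ⟨?_, ?_, ?_, hM, ?_, rfl⟩⟩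
  · simp (disch := omega) only [update_self, update_of_ne]
    exact hl.mono hM (by omega)
  · simp only [update_self]
    exact hr.mono hM (by omega)
  · intro j h1 h2
    simp (disch := omega) only [update_of_ne]
  · intro j h1 h2
    simp (disch := omega) only [update_of_ne]
  · simp only [update_self]; omega
  · simp only [update_self]; omega
  · simp only; omega

/-- Register `k` := second cell of the node it points to. -/
def next (k : ℕ) : Stmt := .seq (.op (.add k k 3)) (.op (.load k k))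

theorem tr_next {σ : St} {k : ℕ} (hk : 4 ≤ k) (h1 : σ.R 3 = 1) (hw : σ.R k + 1 < 2 ^ w) :
    Tr w ρ (next k) σ fun σ' => σ'.R k = σ.M (σ.R k + 1) ∧ (∀ j, j ≠ k → σ'.R j = σ.R j) ∧
      σ'.M = σ.M ∧ Fr k σ σ' 0 2 0 := by
  refine (tr_add (by omega)).bind fun σ₁ u₁ => (tr_load (by omega)).mono fun σ₂ u₂ => ?_
  refine ⟨?_, fun j hj => (u₂.ne j hj).trans (u₁.ne j hj), u₂.mem.trans u₁.mem,
    (u₁.fr.trans u₂.fr).mono (by omega) le_rfl le_rfl rfl⟩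
  rw [u₂.val, u₁.mem, u₁.val, h1, Nat.mod_eq_of_lt hw]

/-- The compiler: replace the tree in register `k` by its image. -/
def cc : Code → ℕ → Stmt
  | .nil, k => .op (.const k 0)
  | .id, _ => .skip
  | .fst, k => .ifz k .skip (.op (.load k k))
  | .snd, k => .ifz k .skip (next k)
  | .pair c d, k => .seq (.op (.copy (k + 1) k)) <| .seq (cc c (k + 1)) <|
      .seq (.op (.copy (k + 2) k)) <| .seq (cc d (k + 2)) (cons k (k + 1) (k + 2))
  | .comp c d, k => .seq (cc d k) (cc c k)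
  | .ite c d e, k => .seq (.op (.copy (k + 1) k)) <| .seq (cc c (k + 1)) <|
      .ifz (k + 1) (cc e k) (cc d k)
  | .loop c, k => .seq (.seq (cc c k) (.seq (.op (.load (k + 1) k)) (next k)))
      (.whl (k + 1) (.seq (cc c k) (.seq (.op (.load (k + 1) k)) (next k))))

/-- Number of steps per unit of cost. -/
def cK : Code → ℕ
  | .nil => 1
  | .id => 0
  | .fst => 3
  | .snd => 4
  | .pair c d => cK c + cK d + 7
  | .comp c d => cK c + cK d
  | .ite c d e => cK c + cK d + cK e + 3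
  | .loop c => cK c + 5

theorem ev_pos {c : Code} {v v' : V} {n : ℕ} (h : Ev c v v' n) : 1 ≤ n :=
  v.one_le_size.trans h.size_in

/-- Correctness of the compiler `cc`. -/
theorem tr_cc {c : Code} {v v' : V} {n : ℕ} (h : Ev c v v' n) (k : ℕ) (hk : 4 ≤ k) (σ : St)
    (hg : Good w σ (2 * n)) (hv : Rep σ.M (σ.R 2) v (σ.R k)) :
    Tr w ρ (cc c k) σ fun σ' =>
      Rep σ'.M (σ'.R 2) v' (σ'.R k) ∧ Fr k σ σ' (2 * n) (cK c * n) 0 := by
  induction h generalizing k σ with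
  | nil v =>
    have := v.one_le_size
    refine (tr_const (by omega) 0).mono fun σ' u => ⟨?_, u.fr.mono le_rfl (by omega) ?_ rfl⟩
    · rw [u.val]; exact Nat.zero_mod _
    · simp only [cK]; omega
  | id v => exact .skip ⟨hv, (Fr.refl k σ).mono le_rfl (by omega) (by omega) rfl⟩
  | fst v =>
    have := v.one_le_size
    cases v with
    | nil =>
      exact .ifz_z hv (.skip ⟨hv, (Fr.tick k σ).mono le_rfl (by omega) (by simp [cK]) rfl⟩)
    | node l r =>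
      refine .ifz_nz hv.1.ne' ((tr_load (by omega)).mono fun σ' u => ⟨?_, ?_⟩)
      · rw [u.val]; exact u.fr.rep hv.2.2.1
      · exact ((Fr.tick k σ).trans u.fr).mono (by omega) (by omega) (by simp only [cK]; omega) rfl
  | snd v =>
    have := v.one_le_size
    cases v with
    | nil =>
      exact .ifz_z hv (.skip ⟨hv, (Fr.tick k σ).mono le_rfl (by omega) (by simp [cK]) rfl⟩)
    | node l r =>
      have h1 := hv.2.1
      have h2 := hg.room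
      refine .ifz_nz hv.1.ne' ((tr_next (σ := σ.tick) hk hg.one (by simp; omega)).mono ?_)
      rintro σ' ⟨u₁, -, -, u⟩
      refine ⟨?_, ?_⟩
      · rw [u₁]; exact u.rep hv.2.2.2
      · exact ((Fr.tick k σ).trans u).mono (by omega) (by omega) (by simp only [cK]; omega) rfl
  | @pair c d v w₁ w₂ n₁ n₂ h₁ h₂ ih₁ ih₂ =>
    have p₁ := ev_pos h₁
    have p₂ := ev_pos h₂
    refine (tr_copy (by omega)).bind fun σ₁ u₁ => ?_
    refine (ih₁ (k + 1) (by omega) σ₁ (hg.fr u₁.fr (by omega) (by omega))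
      (by rw [u₁.val]; exact u₁.fr.rep hv)).bind fun σ₂ ⟨r₂, f₂⟩ => ?_
    have F₂ := u₁.fr.trans f₂
    refine (tr_copy (by omega)).bind fun σ₃ u₃ => ?_
    have F₃ := F₂.trans u₃.fr
    refine (ih₂ (k + 2) (by omega) σ₃ (hg.fr F₃ (by omega) (by omega))
      (by rw [u₃.val]; exact u₃.fr.rep (F₂.repR (by omega) (by omega) hv))).bind
      fun σ₄ ⟨r₄, f₄⟩ => ?_
    have F₄ := F₃.trans f₄
    refine (tr_cons (hg.fr F₄ (by omega) (by omega)) hk (by omega)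
      ((u₃.fr.trans f₄).repR (by omega) (by omega) r₂) r₄).mono fun σ₅ ⟨r₅, _, f₅⟩ =>
      ⟨r₅, (F₄.trans f₅).mono (by omega) (by omega) ?_ rfl⟩
    simp only [cK]; nlinarith
  | @comp c d v u v' n₁ n₂ h₁ h₂ ih₁ ih₂ =>
    refine (ih₁ k hk σ (hg.mono (by omega)) hv).bind fun σ₁ ⟨r₁, f₁⟩ => ?_
    refine (ih₂ k hk σ₁ (hg.fr f₁ hk (by omega)) r₁).mono fun σ₂ ⟨r₂, f₂⟩ =>
      ⟨r₂, (f₁.trans f₂).mono (by omega) (by omega) ?_ rfl⟩
    simp only [cK]; nlinarith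
  | @ite_nil c d e v v' n₁ n₂ h₁ h₂ ih₁ ih₂ =>
    have p₁ := ev_pos h₁
    refine (tr_copy (by omega)).bind fun σ₁ u₁ => ?_
    refine (ih₁ (k + 1) (by omega) σ₁ (hg.fr u₁.fr (by omega) (by omega))
      (by rw [u₁.val]; exact u₁.fr.rep hv)).bind fun σ₂ ⟨r₂, f₂⟩ => ?_
    have F₂ := (u₁.fr.trans f₂).trans (Fr.tick (k + 1) σ₂)
    refine .ifz_z r₂ ((ih₂ k hk _ (hg.fr F₂ (by omega) (by omega))
      (F₂.repR (by omega) (by omega) hv)).mono fun σ₃ ⟨r₃, f₃⟩ =>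
      ⟨r₃, (F₂.trans f₃).mono (by omega) (by omega) ?_ rfl⟩)
    simp only [cK]; nlinarith
  | @ite_node c d e v x y v' n₁ n₂ h₁ h₂ ih₁ ih₂ =>
    have p₁ := ev_pos h₁
    refine (tr_copy (by omega)).bind fun σ₁ u₁ => ?_
    refine (ih₁ (k + 1) (by omega) σ₁ (hg.fr u₁.fr (by omega) (by omega))
      (by rw [u₁.val]; exact u₁.fr.rep hv)).bind fun σ₂ ⟨r₂, f₂⟩ => ?_
    have F₂ := (u₁.fr.trans f₂).trans (Fr.tick (k + 1) σ₂)
    refine .ifz_nz r₂.1.ne' ((ih₂ k hk _ (hg.fr F₂ (by omega) (by omega))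
      (F₂.repR (by omega) (by omega) hv)).mono fun σ₃ ⟨r₃, f₃⟩ =>
      ⟨r₃, (F₂.trans f₃).mono (by omega) (by omega) ?_ rfl⟩)
    simp only [cK]; nlinarith
  | @loop_stop c v v' n h₁ ih₁ =>
    have p₁ := ev_pos h₁
    refine .seq ((ih₁ k hk σ hg hv).bind fun σ₁ ⟨r₁, f₁⟩ => ?_)
    have g₁ : Good w σ₁ 0 := hg.fr f₁ hk (by omega)
    refine (tr_load (by omega)).bind fun σ₂ u₂ => ?_
    have e₂ := u₂.ne k (by omega)
    refine (tr_next hk ((u₂.ne 3 (by omega)).trans g₁.one)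
      (by have := r₁.2.1; have := g₁.room; omega)).mono fun σ₃ ⟨u₃, n₃, _, f₃⟩ => ?_
    have F₃ := (u₂.fr.trans f₃).trans (Fr.tick k σ₃)
    refine .whl_stop ?_ ⟨?_, (f₁.trans F₃).mono (by omega) (by omega) ?_ rfl⟩
    · rw [n₃ _ (by omega), u₂.val]; exact r₁.2.2.1
    · rw [St.tick_R, u₃, e₂, u₂.mem]; exact F₃.rep r₁.2.2.2
    · simp only [cK]; nlinarith
  | @loop_next c v x y v' v'' n₁ n₂ h₁ h₂ ih₁ ih₂ =>
    have p₁ := ev_pos h₁
    refine .seq ((ih₁ k hk σ (hg.mono (by omega)) hv).bind fun σ₁ ⟨r₁, f₁⟩ => ?_)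
    have g₁ : Good w σ₁ 0 := hg.fr f₁ hk (by omega)
    refine (tr_load (by omega)).bind fun σ₂ u₂ => ?_
    have e₂ := u₂.ne k (by omega)
    refine (tr_next hk ((u₂.ne 3 (by omega)).trans g₁.one)
      (by have := r₁.2.1; have := g₁.room; omega)).mono fun σ₃ ⟨u₃, n₃, _, f₃⟩ => ?_
    have F₃ := (u₂.fr.trans f₃).trans (Fr.tick k σ₃)
    have G₃ := f₁.trans F₃
    refine .whl_next ?_ (Tr.seq_inv ((ih₂ k hk σ₃.tick (hg.fr G₃ (by omega) (by omega)) ?_).mono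
      fun σ₄ ⟨r₄, f₄⟩ => ⟨r₄, (G₃.trans f₄).mono (by omega) (by omega) ?_ rfl⟩))
    · rw [n₃ _ (by omega), u₂.val]; exact r₁.2.2.1.1.ne'
    · rw [St.tick_R, u₃, e₂, u₂.mem]; exact F₃.rep r₁.2.2.2
    · simp only [cK]; nlinarith

end Crest.Agent.Lib.RamC
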