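import Crest.Agent.Lib.RamC.Heap
import Crest.Agent.Lib.PolyTime.Basic

/-!
# Input, random bits and output for heap-allocated trees on the word RAM

Register `4` holds the constant `2` and register `5` points to the code of `true`.
-/

set_option autoImplicit false

namespace Crest.Agent.Lib.RamC

open Function Crest.Agent.Lib.PolyTime

variable {w : ℕ} {ρ : ℕ → ℕ}

/-- The constants `2` and `enc true` are available. -/
structure Cst (σ : St) : Prop where
  two : σ.R 4 = 2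
  tru : Rep σ.M (σ.R 2) (.node .nil .nil) (σ.R 5)

theorem Cst.fr {σ σ' : St} {k dh dt dd : ℕ} (h : Cst σ) (hf : Fr k σ σ' dh dt dd) (hk : 6 ≤ k) :
    Cst σ' :=
  ⟨(hf.regs 4 (by omega) (by omega)).trans h.two, hf.repR (by omega) (by omega) h.tru⟩

/-- Push the low bit of register `a` on the list in register `d`; register `b` is scratch. -/
def pushBit (d b a : ℕ) : Stmt :=
  .seq (.op (.rem b a 4)) <| .seq (.ifz b .skip (.op (.copy b 5))) (cons d b d)

theorem tr_pushBit {σ : St} {d b a : ℕ} (hg : Good w σ 2) (hc : Cst σ) (hd : 6 ≤ d) (hb : d < b)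
    {l : List Bool} (hl : Rep σ.M (σ.R 2) (enc l) (σ.R d)) :
    Tr w ρ (pushBit d b a) σ fun σ' =>
      Rep σ'.M (σ'.R 2) (enc (decide (σ.R a % 2 = 1) :: l)) (σ'.R d) ∧
      (∀ j, j ≠ d → j ≠ b → j ≠ 2 → σ'.R j = σ.R j) ∧ Fr d σ σ' 2 9 0 := by
  refine (tr_rem (by omega)).bind fun σ₁ u₁ => ?_
  have key : Tr w ρ (.ifz b .skip (.op (.copy b 5))) σ₁ fun σ₂ =>
      Rep σ₂.M (σ₂.R 2) (enc (decide (σ.R a % 2 = 1))) (σ₂.R b) ∧
      (∀ j, j ≠ b → σ₂.R j = σ₁.R j) ∧ Fr b σ₁ σ₂ 0 3 0 := by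
    have hv := u₁.val
    rw [hc.two] at hv
    rcases Nat.mod_two_eq_zero_or_one (σ.R a) with h | h
    · refine .ifz_z (hv.trans h) (.skip ⟨?_, fun _ _ => rfl,
        (Fr.tick b σ₁).mono le_rfl le_rfl (by omega) rfl⟩)
      rw [h]; exact hv.trans h
    · refine .ifz_nz (by omega) ((tr_copy (by omega)).mono fun σ₂ u₂ => ⟨?_, u₂.ne,
        ((Fr.tick b σ₁).trans u₂.fr).mono (by omega) le_rfl le_rfl rfl⟩)
      rw [h, u₂.val]
      exact u₂.fr.rep (hc.fr u₁.fr (by omega)).tru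
  refine key.bind fun σ₂ ⟨r₂, n₂, f₂⟩ => ?_
  have F₂ := u₁.fr.trans f₂
  refine (tr_cons (hg.fr F₂ (by omega) (by omega)) (by omega) (by omega) r₂
    (F₂.repR (by omega) (by omega) hl)).mono fun σ₃ ⟨r₃, n₃, f₃⟩ =>
    ⟨r₃, fun j h1 h2 h3 => ?_, (F₂.trans f₃).mono (by omega) le_rfl le_rfl rfl⟩
  rw [n₃ j h1 h3, n₂ j h2, u₁.ne j h2]

/-- Push the binary digits of register `k + 1` on the list in register `k`. -/
def bitsR (k : ℕ) : Stmt :=
  .whl (k + 1) (.seq (pushBit k (k + 2) (k + 1)) (.op (.quot (k + 1) (k + 1) 4)))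

theorem bits_eq {a : ℕ} (ha : a ≠ 0) : a.bits = decide (a % 2 = 1) :: (a / 2).bits := by
  induction a using Nat.binaryRec' with
  | zero => exact absurd rfl ha
  | bit b n h _ =>
    rw [Nat.bits_append_bit n b h]
    cases b <;> simp [Nat.bit_val, Nat.mul_add_div, Nat.add_mod]

theorem tr_bitsR {k : ℕ} (hk : 6 ≤ k) (a : ℕ) (σ : St) (l : List Bool)
    (hg : Good w σ (2 * a.bits.length)) (hc : Cst σ) (ha : σ.R (k + 1) = a)
    (hl : Rep σ.M (σ.R 2) (enc l) (σ.R k)) :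
    Tr w ρ (bitsR k) σ fun σ' => Rep σ'.M (σ'.R 2) (enc (a.bits.reverse ++ l)) (σ'.R k) ∧
      Fr k σ σ' (2 * a.bits.length) (12 * a.bits.length + 2) 0 := by
  induction a using Nat.strong_induction_on generalizing σ l with
  | _ a ih =>
  by_cases h0 : a = 0
  · subst h0
    exact .whl_stop ha ⟨hl, (Fr.tick k σ).mono le_rfl (by omega) (by omega) rfl⟩
  have hb := bits_eq h0
  have hlen : a.bits.length = (a / 2).bits.length + 1 := by rw [hb]; rfl
  refine .whl_next (by omega) (.seq ((tr_pushBit (σ := σ.tick) (hg.fr (Fr.tick k σ) (by omega)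
    (by omega)) (hc.fr (Fr.tick k σ) hk) hk (by omega) hl).mono fun σ₁ ⟨r₁, n₁, f₁⟩ => ?_))
  have F₁ := (Fr.tick k σ).trans f₁
  refine (tr_quot (by omega)).mono fun σ₂ u₂ => ?_
  have F₂ := F₁.trans u₂.fr
  refine (ih (a / 2) (by omega) σ₂ _ (hg.fr F₂ (by omega) (by omega)) (hc.fr F₂ (by omega)) ?_
    (u₂.fr.repR (by omega) (by omega) r₁)).mono fun σ₃ ⟨r₃, f₃⟩ =>
    ⟨?_, (F₂.trans f₃).mono (by omega) (by omega) (by omega) rfl⟩
  · rw [u₂.val, n₁ _ (by omega) (by omega) (by omega), (hc.fr F₁ (by omega)).two, St.tick_R, ha]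
  · rw [hb, List.reverse_cons, List.append_assoc]
    rw [St.tick_R, ha] at r₃
    exact r₃

theorem length_bits_le (a : ℕ) : a.bits.length + 1 ≤ sz a := length_lt_sz a.bits

/-- Push the words in the memory cells below the content of register `k + 1` on the list in
register `k`, each as its reversed list of binary digits. -/
def inp (k : ℕ) : Stmt :=
  .whl (k + 1) <| .seq (.op (.sub (k + 1) (k + 1) 3)) <| .seq (.op (.load (k + 3) (k + 1))) <|
    .seq (.op (.const (k + 2) 0)) <| .seq (bitsR (k + 2)) (cons k (k + 2) k)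

theorem tr_inp {k : ℕ} (hk : 6 ≤ k) (x : List ℕ) (σ : St) (l : List (List Bool))
    (hg : Good w σ (2 * sz x)) (hc : Cst σ) (hx : σ.R (k + 1) = x.length)
    (hH : x.length ≤ σ.R 2) (hM : ∀ j (h : j < x.length), σ.M j = x[j])
    (hl : Rep σ.M (σ.R 2) (enc l) (σ.R k)) :
    Tr w ρ (inp k) σ fun σ' =>
      Rep σ'.M (σ'.R 2) (enc (x.map (fun a => a.bits.reverse) ++ l)) (σ'.R k) ∧
      Fr k σ σ' (2 * sz x) (12 * sz x) 0 := by
  induction x using List.reverseRecOn generalizing σ l with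
  | nil => exact .whl_stop hx ⟨hl, (Fr.tick k σ).mono le_rfl (by omega) (by simp) rfl⟩
  | append_singleton x a ih =>
    have hs : sz (x ++ [a]) = sz x + sz a + 1 := by
      have := sz_append x [a]
      simp only [sz_cons, sz_nil] at this
      omega
    have hb := length_bits_le a
    simp only [List.length_append, List.length_singleton] at hx hH
    refine .whl_next (by omega) (.seq ((tr_sub (σ := σ.tick) (by omega)).mono fun σ₁ u₁ => ?_))
    have F₁ := (Fr.tick (k + 1) σ).trans u₁.fr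
    have e₁ : σ₁.R (k + 1) = x.length := by
      rw [u₁.val, St.tick_R, hx, hg.one]; rfl
    refine .seq ((tr_load (by omega)).mono fun σ₂ u₂ => ?_)
    have F₂ := F₁.trans u₂.fr
    refine .seq ((tr_const (by omega) 0).mono fun σ₃ u₃ => ?_)
    have F₃ := F₂.trans u₃.fr
    refine .seq ((tr_bitsR (k := k + 2) (by omega) a σ₃ [] (hg.fr F₃ (by omega) (by omega))
      (hc.fr F₃ (by omega)) ?_ ?_).mono fun σ₄ ⟨r₄, f₄⟩ => ?_)
    · rw [u₃.ne _ (by omega), u₂.val, e₁, u₁.mem, St.tick_M, hM _ (by simp)]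
      simp
    · rw [u₃.val]; exact Nat.zero_mod _
    have F₄ := F₃.trans f₄
    refine (tr_cons (hg.fr F₄ (by omega) (by omega)) (by omega) (by omega) r₄
      (F₄.repR (by omega) (by omega) hl)).mono fun σ₅ ⟨r₅, n₅, f₅⟩ => ?_
    have F₅ := F₄.trans f₅
    refine (ih σ₅ (a.bits.reverse :: l) (hg.fr F₅ (by omega) (by omega)) (hc.fr F₅ (by omega)) ?_
      (by have := F₅.hp_ge; omega) (fun j hj => ?_) (by simpa using r₅)).mono fun σ₆ ⟨r₆, f₆⟩ =>
      ⟨by simpa using r₆, (F₅.trans f₆).mono (by omega) (by omega) (by omega) rfl⟩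
    · rw [n₅ _ (by omega) (by omega), ((u₂.fr.trans u₃.fr).trans f₄).regs _ (by omega) (by omega),
        e₁]
    · rw [F₅.mem j (by omega), hM j (by simp; omega), List.getElem_append_left hj]

/-- The low bits of `m` consecutive random words. -/
def lows (w : ℕ) (ρ : ℕ → ℕ) (d m : ℕ) : List Bool :=
  (List.range m).map fun i => decide (ρ (d + i) % 2 ^ w % 2 = 1)

theorem lows_succ (d m : ℕ) :
    lows w ρ d (m + 1) = decide (ρ d % 2 ^ w % 2 = 1) :: lows w ρ (d + 1) m := by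
  simp only [lows, List.range_succ_eq_map, List.map_cons, List.map_map, Nat.add_zero]
  congr 1
  refine List.map_congr_left fun i _ => ?_
  simp only [comp, Nat.succ_eq_add_one, Nat.add_assoc, Nat.add_comm 1 i]

@[simp] theorem length_lows (d m : ℕ) : (lows w ρ d m).length = m := by simp [lows]

/-- Draw one word for each element of the list in register `k + 1` and push its low bit on the
list in register `k`. -/
def draw (k : ℕ) : Stmt :=
  .whl (k + 1) <| .seq (.op (.rand (k + 2))) <| .seq (pushBit k (k + 2) (k + 2)) (next (k + 1))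

theorem tr_draw {k : ℕ} (hk : 6 ≤ k) (m : ℕ) (σ : St) (l : List Bool)
    (hg : Good w σ (2 * m)) (hc : Cst σ)
    (hm : Rep σ.M (σ.R 2) (enc (List.replicate m ())) (σ.R (k + 1)))
    (hl : Rep σ.M (σ.R 2) (enc l) (σ.R k)) :
    Tr w ρ (draw k) σ fun σ' =>
      Rep σ'.M (σ'.R 2) (enc ((lows w ρ σ.drawn m).reverse ++ l)) (σ'.R k) ∧
      Fr k σ σ' (2 * m) (14 * m + 2) m := by
  induction m generalizing σ l with
  | zero => exact .whl_stop hm ⟨hl, (Fr.tick k σ).mono le_rfl (by omega) (by simp) rfl⟩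
  | succ m ih =>
    rw [List.replicate_succ, enc_cons] at hm
    refine .whl_next hm.1.ne' (.seq ((tr_rand (σ := σ.tick) (by omega)).mono fun σ₁ u₁ => ?_))
    have F₁ := (Fr.tick (k + 1) σ).trans u₁.fr
    refine .seq ((tr_pushBit (hg.fr F₁ (by omega) (by omega)) (hc.fr F₁ (by omega)) hk (by omega)
      (F₁.repR (by omega) (by omega) hl)).mono fun σ₂ ⟨r₂, n₂, f₂⟩ => ?_)
    have F₂ := F₁.trans f₂
    have e₂ : σ₂.R (k + 1) = σ.R (k + 1) := by
      rw [n₂ _ (by omega) (by omega) (by omega), u₁.ne _ (by omega), St.tick_R]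
    have g₂ : Good w σ₂ 0 := hg.fr F₂ (by omega) (by omega)
    refine (tr_next (by omega) g₂.one (by
      have := hm.2.1; have := hg.room; omega)).mono fun σ₃ ⟨u₃, n₃, m₃, f₃⟩ => ?_
    have F₃ := F₂.trans f₃
    refine (ih σ₃ _ (hg.fr F₃ (by omega) (by omega)) (hc.fr F₃ (by omega)) ?_
      (f₃.repR (by omega) (by omega) r₂)).mono fun σ₄ ⟨r₄, f₄⟩ =>
      ⟨?_, (F₃.trans f₄).mono (by omega) (by omega) (by omega) (by omega)⟩
    · rw [u₃, e₂, F₂.mem _ hm.2.1]
      exact F₃.rep hm.2.2.2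
    · rw [lows_succ, List.reverse_cons, List.append_assoc]
      rw [u₁.val, F₃.drawn] at r₄
      exact r₄

/-- Add to register `k` the product of register `k + 1` and the number whose binary digits are
the list in register `k + 2`. -/
def decode (k : ℕ) : Stmt :=
  .whl (k + 2) <| .seq (.op (.load (k + 3) (k + 2))) <|
    .seq (.ifz (k + 3) .skip (.op (.add k k (k + 1)))) <|
    .seq (.op (.add (k + 1) (k + 1) (k + 1))) (next (k + 2))

theorem tr_decode {k : ℕ} (hk : 4 ≤ k) {H : ℕ} (hH : H ≤ 2 ^ w) (l : List Bool) (σ : St)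
    (h1 : σ.R 3 = 1) (hl : Rep σ.M H (enc l) (σ.R (k + 2))) (ha : σ.R k < 2 ^ w) :
    Tr w ρ (decode k) σ fun σ' =>
      σ'.R k = (σ.R k + σ.R (k + 1) * l.foldr Nat.bit 0) % 2 ^ w ∧ σ'.M = σ.M ∧
      Fr k σ σ' 0 (9 * l.length + 2) 0 := by
  induction l generalizing σ with
  | nil =>
    refine .whl_stop hl ⟨?_, rfl, (Fr.tick k σ).mono le_rfl (by omega) (by simp) rfl⟩
    simp [Nat.mod_eq_of_lt ha]
  | cons b l ih =>
    rw [enc_cons] at hl
    refine .whl_next hl.1.ne' (.seq ((tr_load (σ := σ.tick) (by omega)).mono fun σ₁ u₁ => ?_))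
    have F₁ := (Fr.tick k σ).trans u₁.fr
    have key : Tr w ρ (.ifz (k + 3) .skip (.op (.add k k (k + 1)))) σ₁ fun σ₂ =>
        σ₂.R k = (σ.R k + σ.R (k + 1) * b.toNat) % 2 ^ w ∧ (∀ j, j ≠ k → σ₂.R j = σ₁.R j) ∧
        σ₂.M = σ₁.M ∧ Fr k σ₁ σ₂ 0 3 0 := by
      cases b with
      | false =>
        refine .ifz_z (u₁.val.trans hl.2.2.1) (.skip ⟨?_, fun _ _ => rfl, rfl,
          (Fr.tick k σ₁).mono le_rfl le_rfl (by omega) rfl⟩)
        simp [u₁.ne k (by omega), Nat.mod_eq_of_lt ha]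
      | true =>
        refine .ifz_nz (by rw [u₁.val]; exact hl.2.2.1.1.ne') ((tr_add (by omega)).mono
          fun σ₂ u₂ => ⟨?_, u₂.ne, u₂.mem,
            ((Fr.tick k σ₁).trans u₂.fr).mono (by omega) le_rfl le_rfl rfl⟩)
        simp [u₂.val, u₁.ne k (by omega), u₁.ne (k + 1) (by omega)]
    refine .seq (key.mono fun σ₂ ⟨e₂, n₂, m₂, f₂⟩ => ?_)
    have F₂ := F₁.trans f₂
    refine .seq ((tr_add (by omega)).mono fun σ₃ u₃ => ?_)
    have F₃ := F₂.trans u₃.fr
    have e₃ : σ₃.R (k + 2) = σ.R (k + 2) := by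
      rw [u₃.ne _ (by omega), n₂ _ (by omega), u₁.ne _ (by omega), St.tick_R]
    have m₃ : σ₃.M = σ.M := by rw [u₃.mem, m₂, u₁.mem, St.tick_M]
    refine (tr_next (by omega) ((F₃.regs 3 (by omega) (by omega)).trans h1)
      (by have := hl.2.1; omega)).mono fun σ₄ ⟨u₄, n₄, m₄, f₄⟩ => ?_
    have F₄ := F₃.trans f₄
    have e₄ : σ₄.R k = (σ.R k + σ.R (k + 1) * b.toNat) % 2 ^ w := by
      rw [n₄ _ (by omega), u₃.ne _ (by omega), e₂]
    have e₄' : σ₄.R (k + 1) = (σ.R (k + 1) + σ.R (k + 1)) % 2 ^ w := by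
      rw [n₄ _ (by omega), u₃.val, n₂ _ (by omega), u₁.ne _ (by omega), St.tick_R]
    refine (ih σ₄ ((F₄.regs 3 (by omega) (by omega)).trans h1) ?_
      (by rw [e₄]; exact Nat.mod_lt _ (by positivity))).mono fun σ₅ ⟨e₅, m₅, f₅⟩ =>
      ⟨?_, by rw [m₅, m₄, m₃], (F₄.trans f₅).mono (by omega) (by omega) (by simp; omega) rfl⟩
    · rw [u₄, e₃, m₄, m₃]; exact hl.2.2.2
    · rw [e₅, e₄, e₄', List.foldr_cons, Nat.bit_val]
      have h₁ := Nat.mod_modEq (σ.R k + σ.R (k + 1) * b.toNat) (2 ^ w)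
      have h₂ := (Nat.mod_modEq (σ.R (k + 1) + σ.R (k + 1)) (2 ^ w)).mul_right
        (l.foldr Nat.bit 0)
      refine (h₁.add h₂).trans ?_
      congr 1
      ring

theorem foldr_bits (a : ℕ) : a.bits.foldr Nat.bit 0 = a := by
  induction a using Nat.binaryRec' with
  | zero => simp
  | bit b n h ih => rw [Nat.bits_append_bit n b h]; simp [ih]

/-- Write the numbers in the list in register `k` to consecutive fresh memory cells. -/
def outp (k : ℕ) : Stmt :=
  .whl k <| .seq (.op (.load (k + 3) k)) <| .seq (.op (.const (k + 1) 0)) <|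
    .seq (.op (.const (k + 2) 1)) <| .seq (decode (k + 1)) <|
    .seq (.op (.store (k + 1) 2)) <| .seq (.op (.add 2 2 3)) (next k)

theorem tr_outp {k : ℕ} (hk : 4 ≤ k) {H : ℕ} (l : List ℕ) (σ : St) (hH : H ≤ σ.R 2)
    (hg : Good w σ l.length) (hl : Rep σ.M H (enc l) (σ.R k)) (hw : ∀ a ∈ l, a < 2 ^ w) :
    Tr w ρ (outp k) σ fun σ' => σ'.R 2 = σ.R 2 + l.length ∧
      (∀ j (h : j < l.length), σ'.M (σ.R 2 + j) = l[j]) ∧ Fr k σ σ' l.length (9 * sz l) 0 := by
  induction l generalizing σ with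
  | nil =>
    exact .whl_stop hl ⟨rfl, by simp, (Fr.tick k σ).mono le_rfl (by omega) (by simp) rfl⟩
  | cons a l ih =>
    rw [enc_cons] at hl
    have hb := length_bits_le a
    have hr := hg.room
    have hp := hg.pos
    simp only [List.length_cons] at hr
    refine .whl_next hl.1.ne' (.seq ((tr_load (σ := σ.tick) (by omega)).mono fun σ₁ u₁ => ?_))
    have F₁ := (Fr.tick (k + 1) σ).trans u₁.fr
    refine .seq ((tr_const (by omega) 0).mono fun σ₂ u₂ => ?_)
    have F₂ := F₁.trans u₂.fr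
    refine .seq ((tr_const (by omega) 1).mono fun σ₃ u₃ => ?_)
    have F₃ := F₂.trans u₃.fr
    have m₃ : σ₃.M = σ.M := by rw [u₃.mem, u₂.mem, u₁.mem, St.tick_M]
    have e₃ : σ₃.R (k + 1) = 0 := by rw [u₃.ne _ (by omega), u₂.val, Nat.zero_mod]
    refine .seq ((tr_decode (k := k + 1) (H := H) (by omega) (by omega) a.bits σ₃
      ((F₃.regs 3 (by omega) (by omega)).trans hg.one) ?_ (by rw [e₃]; positivity)).mono
      fun σ₄ ⟨e₄, m₄, f₄⟩ => ?_)
    · rw [m₃, u₃.ne _ (by omega), u₂.ne _ (by omega), u₁.val]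
      exact hl.2.2.1
    have F₄ := F₃.trans f₄
    have h2 : σ₄.R 2 = σ.R 2 := by have := F₄.hp_ge; have := F₄.hp_le; omega
    have h3 : σ₄.R 3 = 1 := (F₄.regs 3 (by omega) (by omega)).trans hg.one
    have hk4 : σ₄.R k = σ.R k := F₄.regs k (by omega) (by omega)
    rw [e₃, u₃.val, foldr_bits, Nat.mod_eq_of_lt (a := 1) (by omega), Nat.zero_add, Nat.one_mul,
      Nat.mod_eq_of_lt (hw a (by simp))] at e₄
    refine .seq (.op (.seq (.op ?_)))
    have hmod : (σ.R 2 + 1) % 2 ^ w = σ.R 2 + 1 := Nat.mod_eq_of_lt (by omega)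
    simp only [Op.ap, h2, h3, e₄, m₄, m₃, hmod]
    set σ₅ : St := ⟨update σ₄.R 2 (σ.R 2 + 1), update σ.M (σ.R 2) a, σ₄.drawn, σ₄.time + 1 + 1⟩
      with hσ₅
    have e₅ : σ₅.R 2 = σ.R 2 + 1 := by simp only [hσ₅, update_self]
    have n₅ : ∀ j, j ≠ 2 → σ₅.R j = σ₄.R j := fun j hj => by simp only [hσ₅, update_of_ne hj]
    have m₅ : ∀ j, j ≠ σ.R 2 → σ₅.M j = σ.M j := fun j hj => by
      simp only [hσ₅, update_of_ne hj]
    have m₅' : σ₅.M (σ.R 2) = a := by simp only [hσ₅, update_self]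
    have f₅ : Fr (k + 1) σ₄ σ₅ 1 2 0 :=
      ⟨fun j _ hj => n₅ j hj, by omega, by omega,
        fun j hj => by rw [m₅ j (by omega), m₄, m₃], le_rfl, rfl⟩
    have F₅ := F₄.trans f₅
    have hlt := hl.2.1
    refine (tr_next (σ := σ₅) hk ((n₅ 3 (by omega)).trans h3)
      (by rw [n₅ k (by omega), hk4]; omega)).mono fun σ₆ ⟨u₆, n₆, m₆, f₆⟩ => ?_
    have F₆ := F₅.trans f₆
    have e₆ : σ₆.R 2 = σ.R 2 + 1 := by rw [n₆ 2 (by omega), e₅]
    refine (ih σ₆ (by omega) (hg.fr F₆ (by omega) (by simp; omega)) ?_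
      fun b hb => hw b (by simp [hb])).mono fun σ₇ ⟨e₇, m₇, f₇⟩ =>
      ⟨by simp; omega, fun j hj => ?_,
        (F₆.trans f₇).mono (by omega) (by simp; omega) (by simp; omega) rfl⟩
    · rw [u₆, n₅ k (by omega), hk4, m₅ _ (by omega)]
      exact hl.2.2.2.mono (fun j hj => F₆.mem j (by omega)) le_rfl
    · cases j with
      | zero => rw [Nat.add_zero, f₇.mem _ (by omega), m₆, m₅']; rfl
      | succ j =>
        have := m₇ j (by simpa using hj)
        rw [e₆, Nat.add_assoc, Nat.add_comm 1 j] at this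
        exact this

end Crest.Agent.Lib.RamC
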