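import Crest.Prelude.Def_WordRAM

/-!
# A structured language for the word RAM

`Stmt` is a small structured language (basic operations, sequencing, conditionals and `while`
loops on a register being zero) with registers indexed by `ℕ`.  `Ex w ρ s σ σ'` is its big-step
semantics; states carry a clock.  `Stmt.flat` compiles a statement to a list of instructions of
the word RAM and `Ex.flat` is the correctness of the compiler.
-/

set_option autoImplicit false

namespace Crest.Agent.Lib.RamC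

open Crest.WordRAM Function

/-- Basic operations. -/
inductive Op : Type
  | const (d v : ℕ)
  | copy (d s : ℕ)
  | add (d a b : ℕ)
  | sub (d a b : ℕ)
  | mul (d a b : ℕ)
  | quot (d a b : ℕ)
  | rem (d a b : ℕ)
  | load (d a : ℕ)
  | store (s a : ℕ)
  | rand (d : ℕ)

/-- States: registers, memory, number of random words drawn, clock. -/
structure St : Type where
  R : ℕ → ℕ
  M : ℕ → ℕ
  drawn : ℕ
  time : ℕ

/-- Effect of a basic operation. -/
def Op.ap (w : ℕ) (ρ : ℕ → ℕ) : Op → St → St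
  | .const d v, σ => ⟨update σ.R d (v % 2 ^ w), σ.M, σ.drawn, σ.time + 1⟩
  | .copy d s, σ => ⟨update σ.R d (σ.R s), σ.M, σ.drawn, σ.time + 1⟩
  | .add d a b, σ => ⟨update σ.R d ((σ.R a + σ.R b) % 2 ^ w), σ.M, σ.drawn, σ.time + 1⟩
  | .sub d a b, σ => ⟨update σ.R d (σ.R a - σ.R b), σ.M, σ.drawn, σ.time + 1⟩
  | .mul d a b, σ => ⟨update σ.R d ((σ.R a * σ.R b) % 2 ^ w), σ.M, σ.drawn, σ.time + 1⟩
  | .quot d a b, σ => ⟨update σ.R d (σ.R a / σ.R b), σ.M, σ.drawn, σ.time + 1⟩
  | .rem d a b, σ => ⟨update σ.R d (σ.R a % σ.R b), σ.M, σ.drawn, σ.time + 1⟩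
  | .load d a, σ => ⟨update σ.R d (σ.M (σ.R a)), σ.M, σ.drawn, σ.time + 1⟩
  | .store s a, σ => ⟨σ.R, update σ.M (σ.R a) (σ.R s), σ.drawn, σ.time + 1⟩
  | .rand d, σ => ⟨update σ.R d (ρ σ.drawn % 2 ^ w), σ.M, σ.drawn + 1, σ.time + 1⟩

/-- Advance the clock by two. -/
def St.tick (σ : St) : St := ⟨σ.R, σ.M, σ.drawn, σ.time + 2⟩

@[simp] theorem St.tick_R (σ : St) : σ.tick.R = σ.R := rfl
@[simp] theorem St.tick_M (σ : St) : σ.tick.M = σ.M := rfl
@[simp] theorem St.tick_drawn (σ : St) : σ.tick.drawn = σ.drawn := rfl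
@[simp] theorem St.tick_time (σ : St) : σ.tick.time = σ.time + 2 := rfl

/-- Structured statements.  `ifz r a b` runs `a` if register `r` is zero and `b` otherwise;
`whl r a` runs `a` as long as register `r` is non-zero. -/
inductive Stmt : Type
  | skip : Stmt
  | op : Op → Stmt
  | seq : Stmt → Stmt → Stmt
  | ifz : ℕ → Stmt → Stmt → Stmt
  | whl : ℕ → Stmt → Stmt

/-- Big-step semantics. -/
inductive Ex (w : ℕ) (ρ : ℕ → ℕ) : Stmt → St → St → Prop
  | skip (σ : St) : Ex w ρ .skip σ σ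
  | op (o : Op) (σ : St) : Ex w ρ (.op o) σ (o.ap w ρ σ)
  | seq {a b : Stmt} {σ σ₁ σ₂ : St} : Ex w ρ a σ σ₁ → Ex w ρ b σ₁ σ₂ → Ex w ρ (.seq a b) σ σ₂
  | ifz_z {r : ℕ} {a b : Stmt} {σ σ' : St} :
      σ.R r = 0 → Ex w ρ a σ.tick σ' → Ex w ρ (.ifz r a b) σ σ'
  | ifz_nz {r : ℕ} {a b : Stmt} {σ σ' : St} :
      σ.R r ≠ 0 → Ex w ρ b σ.tick σ' → Ex w ρ (.ifz r a b) σ σ'
  | whl_stop {r : ℕ} {a : Stmt} {σ : St} : σ.R r = 0 → Ex w ρ (.whl r a) σ σ.tick
  | whl_next {r : ℕ} {a : Stmt} {σ σ₁ σ₂ : St} :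
      σ.R r ≠ 0 → Ex w ρ a σ.tick σ₁ → Ex w ρ (.whl r a) σ₁ σ₂ → Ex w ρ (.whl r a) σ σ₂

/-- Largest register mentioned. -/
def Op.mr : Op → ℕ
  | .const d _ => d
  | .copy d s => max d s
  | .add d a b => max d (max a b)
  | .sub d a b => max d (max a b)
  | .mul d a b => max d (max a b)
  | .quot d a b => max d (max a b)
  | .rem d a b => max d (max a b)
  | .load d a => max d a
  | .store s a => max s a
  | .rand d => d

/-- Largest register mentioned. -/
def Stmt.mr : Stmt → ℕ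
  | .skip => 0
  | .op o => o.mr
  | .seq a b => max a.mr b.mr
  | .ifz r a b => max r (max a.mr b.mr)
  | .whl r a => max r a.mr

/-- Register number `k` of a machine with `N + 1` registers. -/
def rg (N k : ℕ) : Fin (N + 1) := ⟨k % (N + 1), Nat.mod_lt _ (Nat.succ_pos N)⟩

theorem rg_val {N k : ℕ} (h : k ≤ N) : (rg N k : ℕ) = k := Nat.mod_eq_of_lt (Nat.lt_succ_of_le h)

/-- The instruction of a basic operation. -/
def Op.ins (N : ℕ) : Op → Instr (N + 1)
  | .const d v => .const (rg N d) v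
  | .copy d s => .copy (rg N d) (rg N s)
  | .add d a b => .add (rg N d) (rg N a) (rg N b)
  | .sub d a b => .sub (rg N d) (rg N a) (rg N b)
  | .mul d a b => .mul (rg N d) (rg N a) (rg N b)
  | .quot d a b => .quot (rg N d) (rg N a) (rg N b)
  | .rem d a b => .rem (rg N d) (rg N a) (rg N b)
  | .load d a => .load (rg N d) (rg N a)
  | .store s a => .store (rg N s) (rg N a)
  | .rand d => .rand (rg N d)

/-- Number of instructions of the compiled statement. -/
def Stmt.len : Stmt → ℕ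
  | .skip => 0
  | .op _ => 1
  | .seq a b => a.len + b.len
  | .ifz _ a b => a.len + b.len + 2
  | .whl _ a => a.len + 2

/-- The compiled statement, to be placed at position `p` of the program. -/
def Stmt.flat (N : ℕ) : Stmt → ℕ → List (Instr (N + 1))
  | .skip, _ => []
  | .op o, _ => [o.ins N]
  | .seq a b, p => a.flat N p ++ b.flat N (p + a.len)
  | .ifz r a b, p => .jumpIfZero (rg N r) (p + b.len + 2) :: (b.flat N (p + 1) ++
      .jump (p + a.len + b.len + 2) :: a.flat N (p + b.len + 2))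
  | .whl r a, p => .jumpIfZero (rg N r) (p + a.len + 2) :: (a.flat N (p + 1) ++ [.jump p])

@[simp] theorem Stmt.length_flat (N : ℕ) (s : Stmt) (p : ℕ) : (s.flat N p).length = s.len := by
  induction s generalizing p with
  | skip => rfl
  | op o => rfl
  | seq a b iha ihb => simp [Stmt.flat, Stmt.len, iha, ihb]
  | ifz r a b iha ihb => simp [Stmt.flat, Stmt.len, iha, ihb]; omega
  | whl r a iha => simp [Stmt.flat, Stmt.len, iha]

/-- The configuration with program counter `p` showing the state `σ`. -/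
def St.cfg (N : ℕ) (σ : St) (p : ℕ) : Cfg (N + 1) :=
  ⟨p, false, fun j => σ.R j, σ.M, σ.drawn⟩

/-- The list `l` sits at position `p` of `code`. -/
def At {α : Type} (code : List α) (p : ℕ) (l : List α) : Prop :=
  ∃ pre post, code = pre ++ l ++ post ∧ pre.length = p

theorem At.left {α : Type} {code : List α} {p : ℕ} {l₁ l₂ : List α} (h : At code p (l₁ ++ l₂)) :
    At code p l₁ := by
  obtain ⟨pre, post, rfl, rfl⟩ := h
  exact ⟨pre, l₂ ++ post, by simp, rfl⟩

theorem At.right {α : Type} {code : List α} {p : ℕ} {l₁ l₂ : List α} (h : At code p (l₁ ++ l₂)) :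
    At code (p + l₁.length) l₂ := by
  obtain ⟨pre, post, rfl, rfl⟩ := h
  exact ⟨pre ++ l₁, post, by simp, by simp⟩

theorem At.head {α : Type} {code : List α} {p : ℕ} {i : α} {l : List α} (h : At code p (i :: l)) :
    code[p]? = some i := by
  obtain ⟨pre, post, rfl, rfl⟩ := h
  simp

theorem At.tail {α : Type} {code : List α} {p : ℕ} {i : α} {l : List α} (h : At code p (i :: l)) :
    At code (p + 1) l := At.right (l₁ := [i]) h

theorem writeReg_rg {N d : ℕ} (hd : d ≤ N) (R : ℕ → ℕ) (v : ℕ) :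
    writeReg (fun j : Fin (N + 1) => R j) (rg N d) v = fun j : Fin (N + 1) => update R d v j := by
  funext j
  simp only [writeReg, update_apply, Fin.ext_iff, rg_val hd]

theorem writeMem_eq (M : ℕ → ℕ) (a v : ℕ) : writeMem M a v = update M a v := by
  funext j
  simp only [writeMem, update_apply]

variable {N w : ℕ} {ρ : ℕ → ℕ} {code : List (Instr (N + 1))}

theorem step_op {o : Op} (ho : o.mr ≤ N) {p : ℕ} (h : code[p]? = some (o.ins N)) (σ : St) :
    step ⟨N + 1, code⟩ w ρ (σ.cfg N p) = (o.ap w ρ σ).cfg N (p + 1) := by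
  cases o <;> simp only [Op.mr, max_le_iff] at ho <;>
    simp [step, St.cfg, h, Op.ins, Op.ap, writeReg_rg, writeMem_eq, rg_val, ho]

theorem step_jump {p q : ℕ} (h : code[p]? = some (.jump q)) (σ : St) :
    step ⟨N + 1, code⟩ w ρ (σ.cfg N p) = σ.cfg N q := by
  simp [step, St.cfg, h]

theorem step_jz_z {p q r : ℕ} (hr : r ≤ N) (h : code[p]? = some (.jumpIfZero (rg N r) q))
    (σ : St) (hz : σ.R r = 0) : step ⟨N + 1, code⟩ w ρ (σ.cfg N p) = σ.cfg N q := by
  simp [step, St.cfg, h, rg_val hr, hz]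

theorem step_jz_nz {p q r : ℕ} (hr : r ≤ N) (h : code[p]? = some (.jumpIfZero (rg N r) q))
    (σ : St) (hz : σ.R r ≠ 0) : step ⟨N + 1, code⟩ w ρ (σ.cfg N p) = σ.cfg N (p + 1) := by
  simp [step, St.cfg, h, rg_val hr, hz]

theorem step_halt {p : ℕ} (h : code[p]? = some .halt) (σ : St) :
    step ⟨N + 1, code⟩ w ρ (σ.cfg N p) = { σ.cfg N p with halted := true } := by
  simp [step, St.cfg, h]

@[simp] theorem cfg_tick (σ : St) (p : ℕ) : σ.tick.cfg N p = σ.cfg N p := rfl

/-- Correctness of the compiler. -/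
theorem Ex.flat {s : Stmt} {σ σ' : St} (h : Ex w ρ s σ σ') (hs : s.mr ≤ N) (p : ℕ)
    (hp : At code p (s.flat N p)) :
    ∃ n, σ.time + n ≤ σ'.time ∧
      (step ⟨N + 1, code⟩ w ρ)^[n] (σ.cfg N p) = σ'.cfg N (p + s.len) := by
  induction h generalizing p with
  | skip σ => exact ⟨0, le_rfl, rfl⟩
  | op o σ =>
    refine ⟨1, ?_, step_op hs hp.head σ⟩
    cases o <;> exact le_rfl
  | @seq a b σ σ₁ σ₂ _ _ iha ihb =>
    simp only [Stmt.mr, max_le_iff] at hs
    obtain ⟨n₁, h₁, e₁⟩ := iha hs.1 p hp.left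
    obtain ⟨n₂, h₂, e₂⟩ := ihb hs.2 (p + a.len) (by simpa using hp.right)
    refine ⟨n₂ + n₁, by omega, ?_⟩
    rw [iterate_add_apply, e₁, e₂, Stmt.len, Nat.add_assoc]
  | @ifz_z r a b σ σ' hz _ ih =>
    simp only [Stmt.mr, max_le_iff] at hs
    have h1 := hp.tail.right.tail
    simp only [Stmt.length_flat] at h1
    obtain ⟨n, hn, e⟩ := ih hs.2.1 (p + b.len + 2) (by convert h1 using 1; omega)
    refine ⟨n + 1, by simp at hn; omega, ?_⟩
    rw [iterate_add_apply, iterate_one, step_jz_z hs.1 hp.head σ hz, ← cfg_tick, e, Stmt.len]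
    congr 1; omega
  | @ifz_nz r a b σ σ' hz _ ih =>
    simp only [Stmt.mr, max_le_iff] at hs
    have h1 := hp.tail.right.head
    simp only [Stmt.length_flat] at h1
    obtain ⟨n, hn, e⟩ := ih hs.2.2 (p + 1) hp.tail.left
    refine ⟨1 + (n + 1), by simp at hn; omega, ?_⟩
    rw [iterate_add_apply, iterate_add_apply, iterate_one, step_jz_nz hs.1 hp.head σ hz,
      ← cfg_tick, e, step_jump h1, Stmt.len]
    congr 1; omega
  | @whl_stop r a σ hz =>
    simp only [Stmt.mr, max_le_iff] at hs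
    refine ⟨1, by simp, ?_⟩
    rw [iterate_one, step_jz_z hs.1 hp.head σ hz, cfg_tick, Stmt.len, Nat.add_assoc]
  | @whl_next r a σ σ₁ σ₂ hz _ _ iha ihw =>
    have hs' := hs
    simp only [Stmt.mr, max_le_iff] at hs
    have h1 := hp.tail.right.head
    simp only [Stmt.length_flat] at h1
    obtain ⟨n₁, h₁, e₁⟩ := iha hs.2 (p + 1) hp.tail.left
    obtain ⟨n₂, h₂, e₂⟩ := ihw hs' p hp
    refine ⟨n₂ + (1 + (n₁ + 1)), by simp at h₁; omega, ?_⟩
    rw [iterate_add_apply, iterate_add_apply, iterate_add_apply, iterate_one,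
      step_jz_nz hs.1 hp.head σ hz, ← cfg_tick, e₁, step_jump h1, e₂]

end Crest.Agent.Lib.RamC
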